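import Vale.Agent.P076.H632.Sq

/-! # P076 / H632 : the bridge `ASM.BR`, from cubes to lattice points -/

set_option autoImplicit false

open MeasureTheory Complex Set Vale.Agent.P122.C2 Vale.Agent.P122.AN Vale.Agent.P076 Vale.Agent.P076.NS
open scoped ENNReal NNReal

namespace Vale.Agent.P076.H632

open Vale.Agent.P076.H223 (gf evs bx up norm_pie_ge mean6 par_gf ms_gf evo_split mem_desc0 ix pow_RL)

/-- plates: what the hypothesis of `StNSf` gives for the pieces of one square (helper223) -/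
def StPlt : Prop := ∀ (c0 C0 : ℝ) (N : ℕ), 1 ≤ c0 → 1 ≤ C0 → ∃ C1 : ℝ, 0 ≤ C1 ∧
  ∀ (K n M : ℕ) (a : Z2) (T : Finset Z2) (H : Z2 → E 2 → ℂ) (Q c c' : ℝ), 1 ≤ n → (∀ k, |a k| ≤ N) → 7 ≤ M →
    0 < c' → c' < c → c' ≤ 1 → 4 ≤ K * (c - c') → ASM.Fam (2 ^ (K * n)) c0 T H → 0 ≤ Q →
    (∀ θ v b : ℝ, ASM.plm ((2 ^ (K * n)) ^ c) (2 ^ (K * n)) θ v b T H ≤ (2 ^ (K * n)) ^ (-c) * Q) →
      H322.NoPlD M K n (gf K n a T H) c' C0 (C1 * Q)

theorem card_split {ι κ : Type*} (S : Finset ι) (hS : S.Nonempty) (A : Finset κ) (w : ι → κ → ℂ) {α : ℝ}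
    (h : ∀ k ∈ A, α ≤ ‖∑ a ∈ S, w a k‖) :
    (A.card : ℝ) ≤ ∑ a ∈ S, ((A.filter fun k => α / S.card ≤ ‖w a k‖).card : ℝ) := by
  classical
  have hc : (0:ℝ) < S.card := by exact_mod_cast hS.card_pos
  have h1 : A ⊆ S.biUnion fun a => A.filter fun k => α / S.card ≤ ‖w a k‖ := by
    intro k hk
    have h2 : ∑ _a ∈ S, α / S.card ≤ ∑ a ∈ S, ‖w a k‖ := by
      rw [Finset.sum_const, nsmul_eq_mul, mul_div_cancel₀ _ hc.ne']
      exact (h k hk).trans (norm_sum_le _ _)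
    obtain ⟨a, ha, h3⟩ := Finset.exists_le_of_sum_le hS h2
    exact Finset.mem_biUnion.2 ⟨a, ha, Finset.mem_filter.2 ⟨hk, h3⟩⟩
  calc (A.card : ℝ) ≤ ((S.biUnion fun a => A.filter fun k => α / S.card ≤ ‖w a k‖).card : ℝ) := by
        exact_mod_cast Finset.card_le_card h1
    _ ≤ ((∑ a ∈ S, (A.filter fun k => α / S.card ≤ ‖w a k‖).card : ℕ) : ℝ) := by
        exact_mod_cast Finset.card_biUnion_le
    _ = _ := by push_cast; rfl

theorem bx_ne (N : ℕ) : (bx N).Nonempty := ⟨0, by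
  unfold bx
  rw [Fintype.mem_piFinset]
  intro k
  simp⟩

theorem bx_le {N : ℕ} {a : Z2} (h : a ∈ bx N) (k : Fin 2) : |a k| ≤ N := by
  unfold bx at h
  rw [Fintype.mem_piFinset] at h
  have := h k
  rw [Finset.mem_Icc] at this
  rw [abs_le]
  exact this

/-- the scale `n = 0` -/
theorem zero_scale {K : ℕ} {c0 : ℝ} {T : Finset Z2} {H : Z2 → E 2 → ℂ} (hF : ASM.Fam (2 ^ (K * 0)) c0 T H) {N : ℕ}
    (hN : 5 + c0 ≤ N) (hc : 0 ≤ c0) {V : ℝ} (hV : 0 < V)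
    (hcs : ∀ G : E 2 → ℂ, ASM.Bd 2 G → (∫ η, ‖G η‖) ^ 2 ≤ V * ∫ η, ‖G η‖ ^ 2) {Q α : ℝ} {A : Finset Z2} {t : Z2 → ℝ}
    (hQ : ∑ τ ∈ T, ∫ η, ‖H τ η‖ ^ 2 ≤ Q) (hα : 0 ≤ α) (hpos : ∀ k ∈ A, ‖ASM.lp k‖ ≤ 1)
    (hbig : ∀ k ∈ A, α ≤ ‖evo (fun η => ∑ τ ∈ T, H τ η) (ASM.lp k) (t k) 0‖) :
    α ^ 2 * A.card ≤ 9 * (bx N).card ^ 2 * V * Q := by
  have hQ0 : 0 ≤ Q := le_trans (Finset.sum_nonneg fun τ _ => by positivity) hQ
  rcases A.eq_empty_or_nonempty with rfl | ⟨k, hk⟩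
  · simp
    positivity
  have hcard : (A.card : ℝ) ≤ 9 := by
    have := card_box A (fun _ => 0) (ρ := 1) zero_le_one fun k hk i => by
      have := PiLp.norm_apply_le (ASM.lp k) i
      rw [Real.norm_eq_abs, lp_apply] at this
      rw [sub_zero]
      exact this.trans (hpos k hk)
    refine this.trans ?_
    norm_num
  have h1 : ∀ a ∈ bx N, ‖evs K 0 a T H (ASM.lp k) (t k)‖ ≤ √(V * Q) := by
    intro a _
    have e : desc K 0 0 0 = {0} := by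
      ext θ
      rw [mem_desc0, Finset.mem_singleton]
      constructor
      · intro h
        ext i
        have := h i
        rw [mul_zero, pow_zero] at this
        simp only [Pi.zero_apply]
        omega
      · rintro rfl i
        simp
    unfold evs
    rw [e, Finset.sum_singleton]
    split_ifs with hT
    · refine (evo_le _ _).trans ?_
      refine Real.le_sqrt_of_sq_le ((hcs _ (hF.bd _ hT)).trans ?_)
      gcongr
      exact (Finset.single_le_sum (f := fun τ => ∫ η, ‖H τ η‖ ^ 2) (fun τ _ => by positivity) hT).trans hQ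
    · rw [norm_zero]
      positivity
  have h2 : α ≤ (bx N).card * √(V * Q) := by
    refine (hbig k hk).trans ?_
    rw [evo_split hF hN hc]
    refine (norm_sum_le_of_le _ h1).trans (le_of_eq ?_)
    rw [Finset.sum_const, nsmul_eq_mul]
  have h3 : α ^ 2 ≤ (bx N).card ^ 2 * (V * Q) := by
    calc α ^ 2 ≤ ((bx N).card * √(V * Q)) ^ 2 := pow_le_pow_left₀ hα h2 2
      _ = _ := by rw [mul_pow, Real.sq_sqrt (by positivity)]
  calc α ^ 2 * A.card ≤ ((bx N).card ^ 2 * (V * Q)) * 9 := by gcongr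
    _ = _ := by ring

theorem dim_mono {K n : ℕ} {Y : Finset (Fin 3 → ℤ)} {γ γ' : ℝ} (h : Dim2 K n Y γ) (hγ : γ ≤ γ') : Dim2 K n Y γ' := by
  intro r p h1 h2
  refine (h r p h1 h2).trans ?_
  gcongr

theorem br_of (hP : StPlt) (hS : H322.StNSd) : ASM.StNSf := by
  intro c hc
  obtain ⟨c', hc0', hc1', hcc'⟩ : ∃ c' : ℝ, 0 < c' ∧ c' ≤ 1 ∧ c' < c :=
    ⟨min (c / 2) 1, by positivity, min_le_right _ _, (min_le_left _ _).trans_lt (by linarith)⟩
  obtain ⟨K0, hK0⟩ := hS c' 7 hc0'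
  obtain ⟨K1, hK1⟩ := exists_nat_ge (4 / (c - c'))
  obtain ⟨K, hKK, hKK1, hK1'⟩ : ∃ K : ℕ, K0 ≤ K ∧ K1 ≤ K ∧ 1 ≤ K :=
    ⟨max (max K0 K1) 1, (le_max_left _ _).trans (le_max_left _ _), (le_max_right _ _).trans (le_max_left _ _),
      le_max_right _ _⟩
  have hKpos : (0:ℝ) < K := by exact_mod_cast hK1'
  have h4 : 4 ≤ K * (c - c') := by
    have h0 : 0 < c - c' := by linarith
    rw [div_le_iff₀ h0] at hK1
    refine hK1.trans ?_
    gcongr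
  obtain ⟨M0, hM0⟩ := hK0 K hKK
  obtain ⟨M, hMM, hM7⟩ : ∃ M : ℕ, M0 ≤ M ∧ 7 ≤ M := ⟨max M0 7, le_max_left _ _, le_max_right _ _⟩
  refine ⟨1 / K, by positivity, K, hK1', ?_⟩
  intro c0 hc0
  obtain ⟨N, hN⟩ := exists_nat_ge (5 + c0)
  have hNn : (0:ℝ) ≤ N := Nat.cast_nonneg _
  obtain ⟨Cd, hCd⟩ : ∃ Cd : ℝ, Cd = (8 * (1 + N) + 1) ^ 2 := ⟨_, rfl⟩
  have hCd0 : 0 ≤ Cd := by rw [hCd]; positivity
  obtain ⟨C0, g1, g2, g3, g4⟩ : ∃ C0 : ℝ, 1 ≤ C0 ∧ c0 ≤ C0 ∧ Cd ≤ C0 ∧ 3 * (2 + N) ≤ C0 :=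
    ⟨c0 + Cd + 3 * (2 + N), by linarith, by linarith, by linarith, by linarith⟩
  obtain ⟨C, hC, hST⟩ := hM0 M hMM C0 g1
  obtain ⟨C1, hC1, hPl⟩ := hP c0 C0 N hc0 g1
  obtain ⟨C4, hC4, hm⟩ := mean6 M C0 g1
  obtain ⟨V, hV, hcs⟩ := cs_ball (r := 2)
  obtain ⟨b, hb⟩ : ∃ b : ℝ, b = ((bx N).card : ℝ) := ⟨_, rfl⟩
  have hb0 : 0 < b := by
    rw [hb]
    exact_mod_cast (bx_ne N).card_pos
  obtain ⟨D, hD⟩ : ∃ D : ℝ, D = 16 * (C4 + 1) ^ 2 * Cd * C := ⟨_, rfl⟩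
  have hD0 : 0 ≤ D := by rw [hD]; positivity
  have hE0 : 0 ≤ b ^ 3 * D * (C1 + 1) := by positivity
  have hF0 : 0 ≤ 9 * b ^ 2 * V := by positivity
  refine ⟨9 * b ^ 2 * V + b ^ 3 * D * (C1 + 1), add_nonneg hF0 hE0, ?_⟩
  intro n L T H Q α A t hL hF hQ hpl hα hG
  subst hL
  have hQ0 : 0 ≤ Q := le_trans (Finset.sum_nonneg fun τ _ => by positivity) hQ
  have hR : ((2:ℝ) ^ (K * n)) ^ 2 = 2 ^ (2 * K * n) := (pow_RL K n).symm
  have hX : 0 ≤ ((2:ℝ) ^ (K * n)) ^ (4 / 3 - 1 / (K:ℝ) : ℝ) := by positivity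
  rcases Nat.eq_zero_or_pos n with rfl | hn
  · have h := zero_scale hF hN (by linarith) hV hcs hQ hα (fun k hk => by
      have := hG.pos k hk
      rwa [mul_zero, pow_zero, one_pow] at this) (t := t) (A := A) hG.big
    have e : ((2:ℝ) ^ (K * 0)) ^ (4 / 3 - 1 / (K:ℝ) : ℝ) = 1 := by
      rw [mul_zero, pow_zero, Real.one_rpow]
    rw [← hb] at h
    rw [e, mul_one, add_mul]
    have := mul_nonneg hE0 hQ0
    linarith
  · have h1n : 1 ≤ n := hn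
    have hab : 0 ≤ α / b := div_nonneg hα hb0.le
    have hQ1 : 0 ≤ (C1 + 1) * Q := mul_nonneg (by linarith) hQ0
    -- one square
    have key : ∀ a ∈ bx N, (α / b) ^ 2 * ((A.filter fun k => α / b ≤ ‖evs K n a T H (ASM.lp k) (t k)‖).card : ℝ) ≤
        D * (2 ^ (-(n : ℝ)) * 2 ^ (4 / 3 * (K * n : ℝ))) * ((C1 + 1) * Q) := by
      intro a ha
      set A' := A.filter fun k => α / b ≤ ‖evs K n a T H (ASM.lp k) (t k)‖ with hA'
      have haN : ∀ k, |(a k : ℝ)| ≤ N := fun k => by exact_mod_cast bx_le ha k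
      have hsub : ∀ k ∈ A', k ∈ A := fun k hk => (Finset.mem_filter.1 hk).1
      have hY := hST n (gf K n a T H) (YY n a A' t) ((α / b) / (4 * (C4 + 1) * 2 ^ n)) ((C1 + 1) * Q) h1n
        (par_gf hF g1 g2 a) (dim_mono (dim_YY haN A' t) (by rw [← hCd]; exact g3)) (fun B hB => by
          refine (norm_YY hK1' haN A' t (fun k hk => ?_) (fun k hk => ?_) (fun k hk => ?_) B hB).trans ?_
          · rw [← hR]; exact hG.pos k (hsub k hk)
          · exact hG.t0 k (hsub k hk)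
          · rw [← hR]; exact hG.tR k (hsub k hk)
          · exact mul_le_mul_of_nonneg_right g4 (by positivity)) (div_nonneg hab (by positivity)) hQ1 (fun B hB => by
          obtain ⟨k, hk, rfl⟩ := Finset.mem_image.1 hB
          refine b6_ge hC4 hm hF g1 g2 a (hG.t0 k (hsub k hk)) ?_ hab (Finset.mem_filter.1 hk).2
          rw [← hR]; exact hG.tR k (hsub k hk)) ((ms_gf hF hQ a).trans (ENNReal.ofReal_le_ofReal (by
            have := mul_nonneg hC1 hQ0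
            linarith))) ?_
      · rw [hD, hCd]
        exact sq_arith hC4 (by positivity) (card_YY haN A' t) rfl hY
      · have h := hPl K n M a T H Q c c' h1n (bx_le ha) hM7 hc0' hcc' hc1' h4 hF hQ0 hpl
        intro TT θ v bb U h5 h6
        refine (h TT θ v bb U h5 h6).trans (ENNReal.ofReal_le_ofReal ?_)
        have h0 : C1 * Q ≤ (C1 + 1) * Q := mul_le_mul_of_nonneg_right (by linarith) hQ0
        gcongr
    have hsplit := card_split (bx N) (bx_ne N) A (fun a k => evs K n a T H (ASM.lp k) (t k)) (α := α) fun k hk => by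
      have := hG.big k hk
      rwa [evo_split hF hN (by linarith)] at this
    rw [← hb] at hsplit
    have e2 : (2:ℝ) ^ (-(n : ℝ)) * 2 ^ (4 / 3 * (K * n : ℝ)) = ((2:ℝ) ^ (K * n)) ^ (4 / 3 - 1 / (K:ℝ) : ℝ) := by
      rw [← Real.rpow_natCast, ← Real.rpow_mul (by norm_num), ← Real.rpow_add (by norm_num)]
      congr 1
      push_cast
      field_simp
      ring
    rw [e2] at key
    have h7 : α ^ 2 * A.card ≤ b ^ 2 * ∑ a ∈ bx N, (α / b) ^ 2 *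
        ((A.filter fun k => α / b ≤ ‖evs K n a T H (ASM.lp k) (t k)‖).card : ℝ) := by
      rw [← Finset.mul_sum, ← mul_assoc, div_pow, mul_div_cancel₀ _ (pow_pos hb0 2).ne']
      exact mul_le_mul_of_nonneg_left hsplit (sq_nonneg α)
    refine h7.trans ?_
    have h8 := Finset.sum_le_sum key
    rw [Finset.sum_const, nsmul_eq_mul, ← hb] at h8
    refine (mul_le_mul_of_nonneg_left h8 (sq_nonneg b)).trans ?_
    have h9 : 0 ≤ 9 * b ^ 2 * V * (((2:ℝ) ^ (K * n)) ^ (4 / 3 - 1 / (K:ℝ) : ℝ) * Q) := mul_nonneg hF0 (mul_nonneg hX hQ0)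
    calc b ^ 2 * (b * (D * ((2:ℝ) ^ (K * n)) ^ (4 / 3 - 1 / (K:ℝ) : ℝ) * ((C1 + 1) * Q))) =
        (b ^ 3 * D * (C1 + 1)) * ((2:ℝ) ^ (K * n)) ^ (4 / 3 - 1 / (K:ℝ) : ℝ) * Q := by ring
      _ ≤ _ := by linarith

end Vale.Agent.P076.H632
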