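import Vale.Agent.P076.NS.Defs
import Vale.Agent.P076.ASM.Defs

/-! # P076 / H632 : the cubes of side `2 ^ (2 n)` of the points of one square -/

set_option autoImplicit false

open MeasureTheory Complex Set Vale.Agent.P122.C2 Vale.Agent.P122.AN Vale.Agent.P076 Vale.Agent.P076.NS
open scoped ENNReal NNReal

namespace Vale.Agent.P076.H632

/-- the point of `E3` which corresponds to `(x, t)` -/
noncomputable def zz (a : Z2) (x : E 2) (t : ℝ) : E3 := !₂[(x 0 - t * a 0) / 2, (x 1 - t * a 1) / 2, t / 2]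

/-- the cube of `z` -/
noncomputable def Bx (n : ℕ) (z : E3) : Fin 3 → ℤ := fun i => ⌊z i / 2 ^ (2 * n)⌋

theorem cB_apply (n : ℕ) (B : Fin 3 → ℤ) (i : Fin 3) : cB n B i = 2 ^ (2 * n) * B i := by
  fin_cases i <;> rfl

theorem Bx_near (n : ℕ) (z : E3) (i : Fin 3) : |z i - cB n (Bx n z) i| ≤ 2 ^ (2 * n) := by
  have h0 : (0:ℝ) < 2 ^ (2 * n) := by positivity
  rw [cB_apply]
  unfold Bx
  have h1 := Int.floor_le (z i / 2 ^ (2 * n))
  have h2 := Int.lt_floor_add_one (z i / 2 ^ (2 * n))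
  rw [le_div_iff₀ h0] at h1
  rw [div_lt_iff₀ h0] at h2
  rw [abs_le]
  constructor <;> nlinarith

theorem card_box (S : Finset (Fin 2 → ℤ)) (c : Fin 2 → ℝ) {ρ : ℝ} (hρ : 0 ≤ ρ) (h : ∀ k ∈ S, ∀ i, |(k i : ℝ) - c i| ≤ ρ) :
    (S.card : ℝ) ≤ (2 * ρ + 1) ^ 2 := by
  have hs : S ⊆ Fintype.piFinset fun i => Finset.Icc ⌈c i - ρ⌉ ⌊c i + ρ⌋ := by
    intro k hk
    rw [Fintype.mem_piFinset]
    intro i
    have := abs_le.1 (h k hk i)
    rw [Finset.mem_Icc]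
    constructor
    · rw [Int.ceil_le]; linarith [this.1]
    · rw [Int.le_floor]; linarith [this.2]
  have hc : ∀ i : Fin 2, ((Finset.Icc ⌈c i - ρ⌉ ⌊c i + ρ⌋).card : ℝ) ≤ 2 * ρ + 1 := by
    intro i
    rw [Int.card_Icc]
    have h1 := Int.floor_le (c i + ρ)
    have h2 := Int.le_ceil (c i - ρ)
    have : ((⌊c i + ρ⌋ + 1 - ⌈c i - ρ⌉ : ℤ) : ℝ) ≤ 2 * ρ + 1 := by push_cast; linarith
    rcases le_total 0 (⌊c i + ρ⌋ + 1 - ⌈c i - ρ⌉) with h3 | h3
    · have e : (((⌊c i + ρ⌋ + 1 - ⌈c i - ρ⌉).toNat : ℕ) : ℝ) = ((⌊c i + ρ⌋ + 1 - ⌈c i - ρ⌉ : ℤ) : ℝ) := by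
        rw [← Int.cast_natCast, Int.toNat_of_nonneg h3]
      rw [e]; exact this
    · rw [Int.toNat_of_nonpos h3]
      push_cast; linarith
  calc (S.card : ℝ) ≤ ((Fintype.piFinset fun i => Finset.Icc ⌈c i - ρ⌉ ⌊c i + ρ⌋).card : ℝ) := by
        exact_mod_cast Finset.card_le_card hs
    _ = ((Finset.Icc ⌈c 0 - ρ⌉ ⌊c 0 + ρ⌋).card : ℝ) * ((Finset.Icc ⌈c 1 - ρ⌉ ⌊c 1 + ρ⌋).card : ℝ) := by
        rw [Fintype.card_piFinset, Fin.prod_univ_two]; push_cast; ring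
    _ ≤ (2 * ρ + 1) * (2 * ρ + 1) := by
        gcongr
        · exact hc 0
        · exact hc 1
    _ = _ := by ring

theorem zz_inv (a : Z2) (x : E 2) (t : ℝ) (i : Fin 2) : x i = 2 * (zz a x t (Fin.castSucc i)) + 2 * zz a x t 2 * a i := by
  fin_cases i <;> simp [zz] <;> ring

theorem zz_dist {a : Z2} {Am : ℝ} (hA : ∀ k, |(a k : ℝ)| ≤ Am) {x : E 2} {t : ℝ} {p : E3} {ρ : ℝ}
    (h : ∀ i, |zz a x t i - p i| ≤ ρ) (i : Fin 2) :
    |x i - (2 * p (Fin.castSucc i) + 2 * p 2 * a i)| ≤ 2 * ρ * (1 + Am) := by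
  have h1 := h (Fin.castSucc i)
  have h2 := h 2
  rw [zz_inv a x t i]
  have e : 2 * (zz a x t (Fin.castSucc i)) + 2 * zz a x t 2 * a i - (2 * p (Fin.castSucc i) + 2 * p 2 * a i) =
      2 * (zz a x t (Fin.castSucc i) - p (Fin.castSucc i)) + 2 * (zz a x t 2 - p 2) * a i := by ring
  rw [e]
  refine (abs_add_le _ _).trans ?_
  rw [abs_mul, abs_mul, abs_mul, abs_of_pos (by norm_num : (0:ℝ) < 2)]
  have hρ : 0 ≤ ρ := (abs_nonneg _).trans h1
  calc 2 * |zz a x t (Fin.castSucc i) - p (Fin.castSucc i)| + 2 * |zz a x t 2 - p 2| * |(a i : ℝ)|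
      ≤ 2 * ρ + 2 * ρ * Am := by
        gcongr
        exact hA i
    _ = _ := by ring

/-- the cubes of the points -/
noncomputable def YY (n : ℕ) (a : Z2) (A : Finset (Fin 2 → ℤ)) (t : (Fin 2 → ℤ) → ℝ) : Finset (Fin 3 → ℤ) :=
  A.image fun k => Bx n (zz a (ASM.lp k) (t k))

theorem lp_apply (k : Fin 2 → ℤ) (i : Fin 2) : ASM.lp k i = (k i : ℝ) := rfl

theorem card_YY {n : ℕ} {a : Z2} {Am : ℝ} (hA : ∀ k, |(a k : ℝ)| ≤ Am) (A : Finset (Fin 2 → ℤ)) (t : (Fin 2 → ℤ) → ℝ) :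
    (A.card : ℝ) ≤ (8 * (1 + Am) + 1) ^ 2 * 2 ^ (4 * n) * (YY n a A t).card := by
  have hAm : 0 ≤ Am := (abs_nonneg _).trans (hA 0)
  have h4 : (1:ℝ) ≤ 2 ^ (2 * n) := one_le_pow₀ (by norm_num)
  set N : ℝ := (8 * (1 + Am) + 1) ^ 2 * 2 ^ (4 * n) with hN
  have hN0 : 0 ≤ N := by positivity
  have key : ∀ b ∈ A.image (fun k => Bx n (zz a (ASM.lp k) (t k))),
      (A.filter fun k => Bx n (zz a (ASM.lp k) (t k)) = b).card ≤ ⌊N⌋₊ := by
    intro b _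
    refine Nat.le_floor ?_
    have hh : ∀ k ∈ (A.filter fun k => Bx n (zz a (ASM.lp k) (t k)) = b), ∀ i,
        |(k i : ℝ) - (2 * cB n b (Fin.castSucc i) + 2 * cB n b 2 * a i)| ≤ 2 * 2 ^ (2 * n) * (1 + Am) := by
      intro k hk i
      rw [Finset.mem_filter] at hk
      have := zz_dist hA (x := ASM.lp k) (t := t k) (p := cB n b) (ρ := 2 ^ (2 * n)) (fun i => by
        rw [← hk.2]; exact Bx_near n _ i) i
      rwa [lp_apply] at this
    have := card_box _ (fun i => 2 * cB n b (Fin.castSucc i) + 2 * cB n b 2 * a i) (by positivity) hh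
    refine this.trans ?_
    have e : (2:ℝ) ^ (4 * n) = (2 ^ (2 * n)) ^ 2 := by rw [← pow_mul]; ring_nf
    rw [hN, e, ← mul_pow]
    refine pow_le_pow_left₀ (by positivity) ?_ 2
    nlinarith
  have h := Finset.card_le_mul_card_image A ⌊N⌋₊ key
  calc (A.card : ℝ) ≤ ((⌊N⌋₊ * (YY n a A t).card : ℕ) : ℝ) := by exact_mod_cast h
    _ = (⌊N⌋₊ : ℝ) * (YY n a A t).card := by push_cast; ring
    _ ≤ N * (YY n a A t).card := by
        gcongr
        exact Nat.floor_le hN0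

theorem dim_YY {K n : ℕ} {a : Z2} {Am : ℝ} (hA : ∀ k, |(a k : ℝ)| ≤ Am) (A : Finset (Fin 2 → ℤ)) (t : (Fin 2 → ℤ) → ℝ) :
    Dim2 K n (YY n a A t) ((8 * (1 + Am) + 1) ^ 2) := by
  have hAm : 0 ≤ Am := (abs_nonneg _).trans (hA 0)
  have h4 : (1:ℝ) ≤ 2 ^ (2 * n) := one_le_pow₀ (by norm_num)
  intro r p hr _
  have hr1 : 1 ≤ r := h4.trans hr
  set A' := A.filter fun k => dist (cB n (Bx n (zz a (ASM.lp k) (t k)))) p ≤ r with hA'
  have hsub : (YY n a A t).filter (fun B => dist (cB n B) p ≤ r) ⊆ A'.image fun k => Bx n (zz a (ASM.lp k) (t k)) := by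
    intro B hB
    rw [Finset.mem_filter] at hB
    obtain ⟨k, hk, rfl⟩ := Finset.mem_image.1 hB.1
    exact Finset.mem_image.2 ⟨k, Finset.mem_filter.2 ⟨hk, hB.2⟩, rfl⟩
  have h1 : (((YY n a A t).filter fun B => dist (cB n B) p ≤ r).card : ℝ) ≤ A'.card := by
    exact_mod_cast (Finset.card_le_card hsub).trans Finset.card_image_le
  have hh : ∀ k ∈ A', ∀ i, |(k i : ℝ) - (2 * p (Fin.castSucc i) + 2 * p 2 * a i)| ≤ 2 * (2 * r) * (1 + Am) := by
    intro k hk i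
    rw [hA', Finset.mem_filter] at hk
    have := zz_dist hA (x := ASM.lp k) (t := t k) (p := p) (ρ := 2 * r) (fun i => by
      have k1 := Bx_near n (zz a (ASM.lp k) (t k)) i
      have k2 : |cB n (Bx n (zz a (ASM.lp k) (t k))) i - p i| ≤ r := by
        refine le_trans ?_ hk.2
        rw [dist_eq_norm]
        have := PiLp.norm_apply_le (cB n (Bx n (zz a (ASM.lp k) (t k))) - p) i
        rwa [PiLp.sub_apply, Real.norm_eq_abs] at this
      calc |zz a (ASM.lp k) (t k) i - p i| ≤ |zz a (ASM.lp k) (t k) i - cB n (Bx n (zz a (ASM.lp k) (t k))) i| +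
            |cB n (Bx n (zz a (ASM.lp k) (t k))) i - p i| := abs_sub_le _ _ _
        _ ≤ 2 ^ (2 * n) + r := add_le_add k1 k2
        _ ≤ 2 * r := by linarith) i
    rwa [lp_apply] at this
  have h2 := card_box A' (fun i => 2 * p (Fin.castSucc i) + 2 * p 2 * a i) (by positivity) hh
  refine h1.trans (h2.trans ?_)
  rw [← mul_pow]
  refine pow_le_pow_left₀ (by positivity) ?_ 2
  nlinarith

theorem norm_le3 (z : E3) : ‖z‖ ≤ |z 0| + |z 1| + |z 2| := by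
  rw [EuclideanSpace.norm_eq, Fin.sum_univ_three]
  rw [Real.sqrt_le_left (by positivity)]
  simp only [Real.norm_eq_abs]
  nlinarith [abs_nonneg (z 0), abs_nonneg (z 1), abs_nonneg (z 2), mul_nonneg (abs_nonneg (z 0)) (abs_nonneg (z 1)),
    mul_nonneg (abs_nonneg (z 0)) (abs_nonneg (z 2)), mul_nonneg (abs_nonneg (z 1)) (abs_nonneg (z 2))]

theorem norm_YY {K n : ℕ} (hK : 1 ≤ K) {a : Z2} {Am : ℝ} (hA : ∀ k, |(a k : ℝ)| ≤ Am) (A : Finset (Fin 2 → ℤ))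
    (t : (Fin 2 → ℤ) → ℝ) (hp : ∀ k ∈ A, ‖ASM.lp k‖ ≤ 2 ^ (2 * K * n)) (h0 : ∀ k ∈ A, 0 ≤ t k)
    (h1 : ∀ k ∈ A, t k ≤ 2 ^ (2 * K * n)) : ∀ B ∈ YY n a A t, ‖cB n B‖ ≤ 3 * (2 + Am) * 2 ^ (2 * K * n) := by
  have hAm : 0 ≤ Am := (abs_nonneg _).trans (hA 0)
  have h4 : (2:ℝ) ^ (2 * n) ≤ 2 ^ (2 * K * n) := by
    refine pow_le_pow_right₀ (by norm_num) ?_
    nlinarith [Nat.zero_le n]
  intro B hB
  obtain ⟨k, hk, rfl⟩ := Finset.mem_image.1 hB
  set R : ℝ := 2 ^ (2 * K * n) with hR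
  have hR0 : 0 ≤ R := by positivity
  have hx : ∀ i : Fin 2, |(ASM.lp k) i| ≤ R := fun i => by
    have := PiLp.norm_apply_le (ASM.lp k) i
    rw [Real.norm_eq_abs] at this
    exact this.trans (hp k hk)
  have ht : |t k| ≤ R := by rw [abs_of_nonneg (h0 k hk)]; exact h1 k hk
  have hz : ∀ i : Fin 3, |zz a (ASM.lp k) (t k) i| ≤ R * (1 + Am) := by
    have hi : ∀ i : Fin 2, |(ASM.lp k i - t k * a i) / 2| ≤ R * (1 + Am) := by
      intro i
      rw [abs_div, abs_of_pos (by norm_num : (0:ℝ) < 2)]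
      have : |ASM.lp k i - t k * a i| ≤ R + R * Am := by
        refine (abs_sub _ _).trans ?_
        rw [abs_mul]
        gcongr
        · exact hx i
        · exact hA i
      have h3 : 0 ≤ R * (1 + Am) := by positivity
      linarith
    intro i
    fin_cases i
    · exact hi 0
    · exact hi 1
    · change |t k / 2| ≤ _
      rw [abs_div, abs_of_pos (by norm_num : (0:ℝ) < 2)]
      nlinarith [mul_nonneg hR0 hAm]
  have hc : ∀ i : Fin 3, |cB n (Bx n (zz a (ASM.lp k) (t k))) i| ≤ (2 + Am) * R := by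
    intro i
    have k1 := Bx_near n (zz a (ASM.lp k) (t k)) i
    have k2 := hz i
    have : |cB n (Bx n (zz a (ASM.lp k) (t k))) i| ≤ |zz a (ASM.lp k) (t k) i| +
        |zz a (ASM.lp k) (t k) i - cB n (Bx n (zz a (ASM.lp k) (t k))) i| := by
      have := abs_sub (zz a (ASM.lp k) (t k) i) (zz a (ASM.lp k) (t k) i - cB n (Bx n (zz a (ASM.lp k) (t k))) i)
      rwa [sub_sub_cancel] at this
    nlinarith
  refine (norm_le3 _).trans ?_
  have := hc 0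
  have := hc 1
  have := hc 2
  linarith

end Vale.Agent.P076.H632
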