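import Vale.Agent.P076.H223.Split
import Vale.Agent.P076.H223.Mean
import Vale.Agent.P076.H632.Cub
import Vale.Agent.P076.H322.STDefs

/-! # P076 / H632 : one square of slopes: from the cubes to the lattice points; the trivial scale `n = 0` -/

set_option autoImplicit false

open MeasureTheory Complex Set Vale.Agent.P122.C2 Vale.Agent.P122.AN Vale.Agent.P076 Vale.Agent.P076.NS
open scoped ENNReal NNReal

namespace Vale.Agent.P076.H632

open Vale.Agent.P076.H223 (gf evs bx up norm_pie_ge mean6 par_gf ms_gf evo_split)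

variable {K n : ℕ} {c0 : ℝ} {T : Finset Z2} {H : Z2 → E 2 → ℂ}

theorem zz_x (a : Z2) (x : E 2) (t : ℝ) :
    (2 : ℝ) • up (zz a x t) + (2 * zz a x t 2) • ASM.lp a = x := by
  ext i
  fin_cases i <;> simp [zz, up, ASM.lp] <;> ring

theorem zz_t (a : Z2) (x : E 2) (t : ℝ) : 2 * zz a x t 2 = t := by
  simp [zz]
  ring

/-- lower bound for the means on the cubes -/
theorem b6_ge {M : ℕ} {C0 C4 : ℝ} (hC4 : 0 ≤ C4)
    (hm : ∀ (K n : ℕ) (g : Z2 → E3 → ℂ), NS.Par C0 K n g →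
      ∀ (B : Fin 3 → ℤ) (z : E3), (∀ i, |z i - NS.cB n B i| ≤ 2 ^ (2 * n)) →
      ‖pie K n g 0 0 z‖ₑ ^ 6 ≤ ENNReal.ofReal (C4 * 2 ^ (6 * n)) * NS.b6 M n B (pie K n g 0 0))
    (hF : ASM.Fam (2 ^ (K * n)) c0 T H) (hC : 1 ≤ C0) (hc : c0 ≤ C0) (a : Z2) {x : E 2} {t α : ℝ} (h0 : 0 ≤ t)
    (h1 : t ≤ 2 ^ (2 * K * n)) (hα : 0 ≤ α) (hb : α ≤ ‖evs K n a T H x t‖) :
    ENNReal.ofReal ((α / (4 * (C4 + 1) * 2 ^ n)) ^ 6) ≤ b6 M n (Bx n (zz a x t)) (pie K n (gf K n a T H) 0 0) := by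
  have hp := par_gf hF hC hc a
  have h2 := hm K n (gf K n a T H) hp (Bx n (zz a x t)) (zz a x t) (Bx_near n _)
  have hz2 : |zz a x t 2| ≤ 2 ^ (2 * K * n) := by
    have e : zz a x t 2 = t / 2 := by simp [zz]
    rw [e, abs_of_nonneg (by positivity)]
    have : (0:ℝ) < 2 ^ (2 * K * n) := by positivity
    linarith
  have h3 := norm_pie_ge hF a (zz a x t) hz2
  rw [zz_x, zz_t] at h3
  have h4 : α / 4 ≤ ‖pie K n (gf K n a T H) 0 0 (zz a x t)‖ := by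
    have := hb.trans h3
    linarith
  have h5 : ENNReal.ofReal ((α / 4) ^ 6) ≤ ‖pie K n (gf K n a T H) 0 0 (zz a x t)‖ₑ ^ 6 := by
    rw [← ofReal_norm, ← ENNReal.ofReal_pow (norm_nonneg _)]
    exact ENNReal.ofReal_le_ofReal (pow_le_pow_left₀ (by positivity) h4 6)
  have h6 := h5.trans h2
  have hc1 : (0:ℝ) < (C4 + 1) * 2 ^ (6 * n) := by positivity
  have h7 : ENNReal.ofReal ((α / 4) ^ 6) ≤ ENNReal.ofReal ((C4 + 1) * 2 ^ (6 * n)) *
      b6 M n (Bx n (zz a x t)) (pie K n (gf K n a T H) 0 0) := by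
    refine h6.trans ?_
    gcongr
    linarith
  have h8 : (C4 + 1) * 2 ^ (6 * n) * (α / (4 * (C4 + 1) * 2 ^ n)) ^ 6 ≤ (α / 4) ^ 6 := by
    have e : (C4 + 1) * 2 ^ (6 * n) * (α / (4 * (C4 + 1) * 2 ^ n)) ^ 6 = (α / 4) ^ 6 * ((C4 + 1) / (C4 + 1) ^ 6) := by
      rw [show (2:ℝ) ^ (6 * n) = (2 ^ n) ^ 6 by rw [← pow_mul]; ring_nf]
      field_simp
    rw [e]
    have : (C4 + 1) / (C4 + 1) ^ 6 ≤ 1 := by
      rw [div_le_one (by positivity)]
      exact le_self_pow₀ (by linarith) (by norm_num)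
    calc (α / 4) ^ 6 * ((C4 + 1) / (C4 + 1) ^ 6) ≤ (α / 4) ^ 6 * 1 := by gcongr
      _ = _ := mul_one _
  have h9 : ENNReal.ofReal ((C4 + 1) * 2 ^ (6 * n)) * ENNReal.ofReal ((α / (4 * (C4 + 1) * 2 ^ n)) ^ 6) ≤
      ENNReal.ofReal ((C4 + 1) * 2 ^ (6 * n)) * b6 M n (Bx n (zz a x t)) (pie K n (gf K n a T H) 0 0) := by
    rw [← ENNReal.ofReal_mul hc1.le]
    exact (ENNReal.ofReal_le_ofReal h8).trans h7
  exact (ENNReal.mul_le_mul_iff_right (ENNReal.ofReal_pos.2 hc1).ne' ENNReal.ofReal_ne_top).1 h9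

/-- arithmetic of one square -/
theorem sq_arith {al b Y A Cd C4 C Q : ℝ} {n : ℕ} {X : ℝ} (hC4 : 0 ≤ C4) (hCd : 0 ≤ Cd)
    (hA : A ≤ Cd * 2 ^ (4 * n) * Y) (hb : b = al / (4 * (C4 + 1) * 2 ^ n))
    (h : b ^ 2 * Y ≤ C * 2 ^ (-(7 * (n : ℝ))) * X * Q) :
    al ^ 2 * A ≤ (16 * (C4 + 1) ^ 2 * Cd * C) * (2 ^ (-(n : ℝ)) * X) * Q := by
  have e1 : al = b * (4 * (C4 + 1) * 2 ^ n) := by
    rw [hb]
    field_simp
  have e2 : (2:ℝ) ^ (6 * n) * 2 ^ (-(7 * (n : ℝ))) = 2 ^ (-(n : ℝ)) := by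
    rw [← Real.rpow_natCast, ← Real.rpow_add (by norm_num)]
    congr 1
    push_cast
    ring
  calc al ^ 2 * A ≤ al ^ 2 * (Cd * 2 ^ (4 * n) * Y) := by gcongr
    _ = (16 * (C4 + 1) ^ 2 * Cd) * 2 ^ (6 * n) * (b ^ 2 * Y) := by
        rw [e1]
        rw [show (6 * n) = 4 * n + 2 * n by ring, pow_add]
        rw [show (2:ℝ) ^ (2 * n) = (2 ^ n) ^ 2 by rw [← pow_mul]; ring_nf]
        ring
    _ ≤ (16 * (C4 + 1) ^ 2 * Cd) * 2 ^ (6 * n) * (C * 2 ^ (-(7 * (n : ℝ))) * X * Q) := by gcongr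
    _ = (16 * (C4 + 1) ^ 2 * Cd * C) * ((2 ^ (6 * n) * 2 ^ (-(7 * (n : ℝ)))) * X) * Q := by ring
    _ = _ := by rw [e2]

/-! ### the trivial scale -/

theorem cs_ball {r : ℝ} : ∃ V : ℝ, 0 < V ∧ ∀ G : E 2 → ℂ, ASM.Bd r G → (∫ η, ‖G η‖) ^ 2 ≤ V * ∫ η, ‖G η‖ ^ 2 := by
  have hfin : volume (Metric.closedBall (0 : E 2) r) < ⊤ := measure_closedBall_lt_top
  set B := Metric.closedBall (0 : E 2) r with hB
  refine ⟨volume.real B + 1, by positivity, ?_⟩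
  intro G hG
  obtain ⟨hi, h2⟩ := Vale.Agent.P076.H223.bd_int hG
  have hi2 : Integrable (fun η => ‖G η‖ ^ 2) := by
    have := h2.integrable_norm_pow (by norm_num)
    simpa using this
  have hiB : Integrable (B.indicator (fun _ => (1:ℝ))) :=
    (integrable_indicator_iff measurableSet_closedBall).2 (integrableOn_const hfin.ne (by simp))
  set V : ℝ := volume.real B + 1 with hV
  have hV0 : 0 < V := by positivity
  set m : ℝ := (∫ η, ‖G η‖) / V with hm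
  have hGB : ∀ η, G η ≠ 0 → η ∈ B := fun η h => by simpa [hB] using hG.supp η h
  have h0 : 0 ≤ ∫ η, (‖G η‖ ^ 2 - 2 * m * ‖G η‖ + m ^ 2 * B.indicator (fun _ => (1:ℝ)) η) := by
    refine integral_nonneg fun η => ?_
    by_cases h : η ∈ B
    · simp only [Pi.zero_apply]
      rw [indicator_of_mem h]
      nlinarith [sq_nonneg (‖G η‖ - m)]
    · have hz : G η = 0 := by
        by_contra h'
        exact h (hGB η h')
      simp only [Pi.zero_apply]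
      rw [indicator_of_notMem h, hz]
      simp
  have h1 : ∫ η, (‖G η‖ ^ 2 - 2 * m * ‖G η‖ + m ^ 2 * B.indicator (fun _ => (1:ℝ)) η) =
      (∫ η, ‖G η‖ ^ 2) - 2 * m * (∫ η, ‖G η‖) + m ^ 2 * volume.real B := by
    have i1 : Integrable (fun η => 2 * m * ‖G η‖) := hi.norm.const_mul _
    have i2 : Integrable (fun η => ‖G η‖ ^ 2 - 2 * m * ‖G η‖) := hi2.sub i1
    have i3 : Integrable (fun η => m ^ 2 * B.indicator (fun _ => (1:ℝ)) η) := hiB.const_mul _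
    rw [integral_add i2 i3, integral_sub hi2 i1, integral_const_mul, integral_const_mul,
      integral_indicator_const _ measurableSet_closedBall, smul_eq_mul, mul_one]
  rw [h1] at h0
  have e : ∫ η, ‖G η‖ = m * V := by
    rw [hm]; field_simp
  have h3 : m ^ 2 * volume.real B ≤ m ^ 2 * V := by
    gcongr
    linarith
  rw [e] at h0 ⊢
  nlinarith

theorem evo_le {G : E 2 → ℂ} (x : E 2) (t : ℝ) : ‖evo G x t 0‖ ≤ ∫ η, ‖G η‖ := by
  rw [evo_eq]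
  refine (norm_integral_le_integral_norm _).trans (le_of_eq ?_)
  refine integral_congr_ae (Filter.Eventually.of_forall fun η => ?_)
  simp only
  rw [norm_mul, norm_ph]
  simp

end Vale.Agent.P076.H632
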