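import Vale.Agent.P076.H632.Br
import Vale.Agent.P076.H223.Plt

/-! # P076 / H632 : the bridge `ASM.BR` -/

set_option autoImplicit false

namespace Vale.Agent.P076.H632

theorem plt : StPlt := by
  intro c0 C0 N _ hC
  obtain ⟨C1, hC1, h⟩ := Vale.Agent.P076.H223.noPlD_gf c0 hC
  exact ⟨C1, hC1, fun K n M a T H Q c c' _ _ hM h0 hcc h1 h4 hF hQ hp => h K n M a T H Q c c' hM h0 h1 hcc.le h4 hF hQ hp⟩

/-- **the bridge** -/
theorem br : H322.StNSd → ASM.StNSf := br_of plt

end Vale.Agent.P076.H632
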